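import Mathlib

/-! Definitions for the Phillips-Toms conjecture. -/

open Filter Topology
open scoped ENNReal NNReal

noncomputable section

namespace Vale.Agent.P093

section Mdim

variable {X : Type} [TopologicalSpace X]

/-- Minimal homeomorphisms: every orbit is dense. -/
def IsMinimal (h : X ≃ₜ X) : Prop := ∀ x, Dense (Set.range fun n : ℤ => (h ^ n) x)

/-- Finite open covers. -/
def IsCov (U : Finset (Set X)) : Prop := (∀ u ∈ U, IsOpen u) ∧ ∀ x, ∃ u ∈ U, x ∈ u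

/-- The order: one less than the largest number of members with a common point. -/
def ord (W : Finset (Set X)) : ℕ :=
  sSup {n : ℕ | ∃ S ⊆ W, S.card = n ∧ ∃ x, ∀ s ∈ S, x ∈ s} - 1

/-- The least order of a finite open refinement. -/
def Dd (V : Finset (Set X)) : ℕ :=
  sInf {n : ℕ | ∃ W, IsCov W ∧ (∀ w ∈ W, ∃ v ∈ V, w ⊆ v) ∧ ord W = n}

open Classical in
/-- The join of the covers `h ^ (-j) U`, `0 ≤ j < N`. -/
def join (h : X ≃ₜ X) (U : Finset (Set X)) (N : ℕ) : Finset (Set X) :=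
  (Fintype.piFinset fun _ : Fin N => U).image fun σ => ⋂ j : Fin N, (h ^ (j : ℕ)) ⁻¹' σ j

/-- The mean dimension of a cover. -/
def mdimU (h : X ≃ₜ X) (U : Finset (Set X)) : ℝ≥0∞ :=
  limsup (fun N : ℕ => (Dd (join h U N) : ℝ≥0∞) / N) atTop

/-- The mean dimension. -/
def mdim (h : X ≃ₜ X) : ℝ≥0∞ := ⨆ (U : Finset (Set X)) (_ : IsCov U), mdimU h U

/-- Covariant pairs: `u` is unitary and `u f u* = f ∘ h⁻¹`. -/
structure IsPair (h : X ≃ₜ X) {A : Type} [CStarAlgebra A] (π : C(X, ℂ) →⋆ₐ[ℂ] A) (u : A) :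
    Prop where
  unit : u ∈ unitary A
  cov : ∀ f g : C(X, ℂ), (∀ x, g x = f (h.symm x)) → u * π f * star u = π g

/-- The universal property of the crossed product. -/
def IsCrossed (h : X ≃ₜ X) (A : Type) [CStarAlgebra A] : Prop :=
  ∃ (π : C(X, ℂ) →⋆ₐ[ℂ] A) (u : A), IsPair h π u ∧
    ∀ (B : Type) [CStarAlgebra B] (ρ : C(X, ℂ) →⋆ₐ[ℂ] B) (v : B), IsPair h ρ v →
      ∃! Φ : A →⋆ₐ[ℂ] B, (∀ f, Φ (π f) = ρ f) ∧ Φ u = v

end Mdim

section Rc

variable {A : Type} [CStarAlgebra A]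

/-- Tracial states. -/
structure IsTS (τ : A →L[ℂ] ℂ) : Prop where
  one : τ 1 = 1
  pos : ∀ a, 0 ≤ (τ (star a * a)).re ∧ (τ (star a * a)).im = 0
  comm : ∀ a b, τ (a * b) = τ (b * a)

/-- The `m`-th root. -/
def rt (m : ℕ) (a : A) : A := cfc (fun t : ℝ => t ^ (1 / (m : ℝ))) a

/-- The upper left corner inclusion. -/
def pad {q : ℕ} (p : ℕ) (a : CStarMatrix (Fin q) (Fin q) A) :
    CStarMatrix (Fin (q + p)) (Fin (q + p)) A := fun i j =>
  if h : (i : ℕ) < q ∧ (j : ℕ) < q then a ⟨i, h.1⟩ ⟨j, h.2⟩ else 0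

variable [PartialOrder A] [StarOrderedRing A]

/-- Cuntz subequivalence, with `x n` in arbitrarily large matrix algebras. -/
def CLe {q : ℕ} (a b : CStarMatrix (Fin q) (Fin q) A) : Prop :=
  ∃ (p : ℕ → ℕ) (x : ∀ n, CStarMatrix (Fin (q + p n)) (Fin (q + p n)) A),
    Tendsto (fun n => ‖star (x n) * pad (p n) b * x n - pad (p n) a‖) atTop (𝓝 0)

/-- The dimension function of a trace. -/
def dtau (τ : A →L[ℂ] ℂ) {q : ℕ} (a : CStarMatrix (Fin q) (Fin q) A) : ℝ≥0∞ :=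
  limsup (fun m : ℕ => ENNReal.ofReal (∑ i, τ (rt m a i i)).re) atTop

variable (A)

/-- Comparison bounds. -/
def IsBound (r : ℝ≥0) : Prop :=
  ∀ (q : ℕ) (a b : CStarMatrix (Fin q) (Fin q) A), 0 ≤ a → 0 ≤ b →
    (∀ τ : A →L[ℂ] ℂ, IsTS τ → dtau τ a + r < dtau τ b) → CLe a b

/-- The radius of comparison. -/
def rc : ℝ≥0∞ := ⨅ (r : ℝ≥0) (_ : IsBound A r), (r : ℝ≥0∞)

end Rc

end Vale.Agent.P093
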